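import Vale.Agent.P092.H448.ErgLit2
import Vale.Agent.P092.H866.ErgL
import Vale.Agent.P092.H259.Grp
import Vale.Agent.P092.H103.IndFix2

/-!
P092, project Q for classes of factors (helper328): ergodicity at all places.
-/

set_option linter.all false

open scoped InnerProductSpace Topology
open Filter ContinuousLinearMap

namespace Vale.Agent.P092.QC

open Vale.Agent.P092.H160 Vale.Agent.P092.SR Vale.Agent.P092.H776
open Vale.Agent.P092.H734.Q (Erg)
open Vale.Agent.P092.PA (FacS Lat)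
open Vale.Agent.P092.H259 (PQ pq)
open Vale.Agent.P092.H448 (erg_td NoTor)
open Vale.Agent.P092.H632 (flt flt_up flt_inf flt_conj relIndex_comap_dense)

/-- Totally disconnected factors: a basis of compact open subgroups, proper open subgroups are
compact and their volumes are bounded. -/
structure Td (E : Type) [Group E] [TopologicalSpace E] : Prop where
  basis : H103.CptOpenBasis E
  proper : ∀ W : Subgroup E, IsOpen (W : Set E) → W ≠ ⊤ → IsCompact (W : Set E)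
  vol : ∃ K : Subgroup E, IsOpen (K : Set E) ∧ IsCompact (K : Set E) ∧
    ∀ U W : Subgroup E, IsOpen (U : Set E) → IsOpen (W : Set E) → IsCompact (W : Set E) →
      U ≤ W → U ≤ K → U.relIndex W ≤ U.relIndex K

section td

variable {Γ Λ E : Type} [Group Γ] [Group Λ] [Group E] [TopologicalSpace E] [IsTopologicalGroup E]
  {α : Γ →* (Ell2 Λ →L[ℂ] Ell2 Λ)}

/-- **(G2)** The bound on the size of the proper members of the filter. -/
theorem Td.volBd (h : Td E) {p : Γ →* E} (hp : DenseRange p) :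
    ∃ Θ ∈ flt p, H628.VolBd (flt p) Θ := by
  obtain ⟨K₀, hK₀, hK₀c, hv⟩ := h.vol
  refine ⟨K₀.comap p, ⟨K₀, hK₀, hK₀c, le_rfl⟩, ⟨K₀, hK₀, hK₀c, le_rfl⟩, ?_⟩
  rintro S ⟨K, hK, hKc, hKS⟩ hS U ⟨K', hK', hKc', hKU⟩ hUS hU0
  obtain ⟨W, hW, -, rfl⟩ := H971.exists_open hp hK hKS
  obtain ⟨V, hV, -, rfl⟩ := H971.exists_open hp hK' hKU
  have hWt : W ≠ ⊤ := by
    rintro rfl
    exact hS (Subgroup.comap_top p)
  have hWc := h.proper W hW hWt
  have hVW := H971.comap_le hp hV hW hUS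
  have hVi := H971.comap_le hp hV hK₀ hU0
  rw [relIndex_comap_dense hp hV hW, relIndex_comap_dense hp hV hK₀]
  exact ⟨H971.relIndex_ne_zero hV hWc, H971.relIndex_ne_zero hV hK₀c, hv V W hV hW hWc hVW hVi⟩

/-- No exceptional operators, from the torsion theorem. -/
theorem Td.noCls (h : Td E) (hTor : H628.TorStmt) (hα : Frame α)
    (hicc : ∀ g : Γ, g ≠ 1 → Set.Infinite {y : Γ | ∃ h, y = h * g * h⁻¹})
    {p : Γ →* E} (hp : DenseRange p)
    (ho : ∀ U : Subgroup E, IsOpen (U : Set E) → ∀ g : Γ, g ≠ 1 →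
      Set.Infinite {y : Γ | ∃ k ∈ U.comap p, y = k * g * k⁻¹})
    {U : Subgroup E} (hU : IsOpen (U : Set E)) : NoCls α (U.comap p : Set Γ) := by
  intro s hs S hS
  obtain ⟨Θ, hΘ, hvol⟩ := h.volBd hp
  have hsys : H628.Sys α rhoH (dl (1 : Λ)) (flt p) :=
    { regL := hα.reg
      regR := regRep_rho
      comm := fun g v => hα.comm g v
      ne := ⟨Θ, hΘ⟩
      up := fun U hU S hS => flt_up hU hS
      inf := fun U hU U' hU' => flt_inf hU hU'
      conj := fun U hU g => flt_conj hU g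
      orb := by
        rintro U ⟨K, hK, -, hKU⟩ g hg
        refine (ho K hK g hg).mono ?_
        rintro y ⟨h, hh, rfl⟩
        exact ⟨h, hKU hh, rfl⟩ }
  refine hTor α rhoH (dl 1) (flt p) _ hsys hvol (H628.icc_of_frame hα hicc) s
    hs S ⟨U.comap p, ?_, fun g hg => hS.ca _ ⟨⟨g, hg⟩, rfl⟩,
      fun c hc => hS.cr c hc, ?_⟩
  · obtain ⟨L, hL, hLc, hLU⟩ := h.basis (U : Set E) (hU.mem_nhds U.one_mem)
    exact ⟨L, hL, hLc, Subgroup.comap_mono hLU⟩
  · have h1 := hS.fin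
    have h2 : H628.nn rhoH (Subgroup.centralizer {s}) (dl (1 : Λ)) S
        = ENNReal.ofReal (∑' i : Λ ⧸ Subgroup.centralizer {s}, ‖S (rhoH (i.out)⁻¹ (dl 1))‖ ^ 2) := by
      rw [ENNReal.ofReal_tsum_of_nonneg (fun _ => by positivity) h1]
      unfold H628.nn H628.sq H628.fn
      exact tsum_congr fun q => H628.esq _
    rw [h2]
    exact ENNReal.ofReal_ne_top

/-- **Ergodicity at a totally disconnected place.** -/
theorem Td.erg (h : Td E) (hTor : H628.TorStmt) (hfin : Finite (Subgroup.center E)) (hα : Frame α)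
    (hicc : ∀ g : Γ, g ≠ 1 → Set.Infinite {y : Γ | ∃ h, y = h * g * h⁻¹})
    {p : Γ →* E} (hp : DenseRange p)
    (hf : ∀ h : Γ, h ≠ 1 → ∀ U ∈ 𝓝 (1 : PQ E),
      {y : Γ | ∃ θ : Γ, (pq E).comp p θ ∈ U ∧ y = θ * h * θ⁻¹}.Infinite) :
    H805.Erg ((pq E).comp p) (RRR α) (VV α) (dl (1 : Λ × Λ)) := by
  have ho' : ∀ U : Subgroup (PQ E), IsOpen (U : Set (PQ E)) → ∀ g : Γ, g ≠ 1 →
      Set.Infinite {y : Γ | ∃ k ∈ U.comap ((pq E).comp p), y = k * g * k⁻¹} := by
    intro U hU g hg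
    refine (hf g hg U (hU.mem_nhds U.one_mem)).mono ?_
    rintro y ⟨θ, h1, h2⟩
    exact ⟨θ, h1, h2⟩
  have ho : ∀ U : Subgroup E, IsOpen (U : Set E) → ∀ g : Γ, g ≠ 1 →
      Set.Infinite {y : Γ | ∃ k ∈ U.comap p, y = k * g * k⁻¹} := by
    intro U hU g hg
    refine H971.infinite_lift p (pq E) (QuotientGroup.isOpenMap_coe) ?_
      (fun U hU => hf g hg U hU) U hU
    rw [QuotientGroup.ker_mk']
    exact Set.toFinite _
  refine erg_td hα ?_ ho' ?_
  · intro W hW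
    have h1 : (pq E) ⁻¹' W ∈ 𝓝 (1 : E) :=
      (continuous_quotient_mk'.tendsto (1 : E)) (by exact hW)
    obtain ⟨K, hK, -, hKW⟩ := h.basis _ h1
    refine ⟨K.map (pq E), ?_, ?_⟩
    · rw [Subgroup.coe_map]
      exact QuotientGroup.isOpenMap_coe _ hK
    · rintro _ ⟨x, hx, rfl⟩
      exact hKW hx
  · intro U hU
    have e : U.comap ((pq E).comp p) = (U.comap (pq E)).comap p := rfl
    rw [e]
    have hU' : IsOpen ((U.comap (pq E) : Subgroup E) : Set E) :=
      hU.preimage continuous_quotient_mk'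
    exact h.noCls hTor hα hicc hp ho hU'

/-- **Ergodicity at a totally disconnected place**, `Λ` torsion-free. -/
theorem erg_tf (hb : H103.CptOpenBasis E) (hfin : Finite (Subgroup.center E)) (hα : Frame α)
    (hinf : ∀ s : Λ, s ≠ 1 → ∀ n : ℕ, 0 < n → s ^ n ≠ 1)
    {p : Γ →* E} (hf : ∀ h : Γ, h ≠ 1 → ∀ U ∈ 𝓝 (1 : PQ E),
      {y : Γ | ∃ θ : Γ, (pq E).comp p θ ∈ U ∧ y = θ * h * θ⁻¹}.Infinite) :
    H805.Erg ((pq E).comp p) (RRR α) (VV α) (dl (1 : Λ × Λ)) := by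
  have ho' : ∀ U : Subgroup (PQ E), IsOpen (U : Set (PQ E)) → ∀ g : Γ, g ≠ 1 →
      Set.Infinite {y : Γ | ∃ k ∈ U.comap ((pq E).comp p), y = k * g * k⁻¹} := by
    intro U hU g hg
    refine (hf g hg U (hU.mem_nhds U.one_mem)).mono ?_
    rintro y ⟨θ, h1, h2⟩
    exact ⟨θ, h1, h2⟩
  refine H448.erg_td_tf hα hinf ?_ ho'
  intro W hW
  have h1 : (pq E) ⁻¹' W ∈ 𝓝 (1 : E) :=
    (continuous_quotient_mk'.tendsto (1 : E)) (by exact hW)
  obtain ⟨K, hK, -, hKW⟩ := hb _ h1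
  refine ⟨K.map (pq E), ?_, ?_⟩
  · rw [Subgroup.coe_map]
    exact QuotientGroup.isOpenMap_coe _ hK
  · rintro _ ⟨x, hx, rfl⟩
    exact hKW hx

end td

end Vale.Agent.P092.QC
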