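import Vale.Agent.P092.H739.Mau
import Vale.Agent.P092.H15.HMAbs

/-!
P092, project Q for classes of factors (helper328): Howe–Moore along products of sequences which
tend to infinity, from the group form `HMG` of the factors.
-/

set_option linter.all false

open scoped InnerProductSpace Topology
open Filter Topology

namespace Vale.Agent.P092.QC

open Vale.Agent.P092.H933 (Len)
open Vale.Agent.P092.H264 (HMSeq)
open Vale.Agent.P092.H15 (HMG Ctr)

/-- A sequence whose contracted elements generate the group, in the sense of Mautner, along every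
ultrafilter. -/
def MauU (H : Type) [Group H] [TopologicalSpace H] (b : ℕ → H) : Prop :=
  ∀ U : Ultrafilter ℕ, (U : Filter ℕ) ≤ atTop → ∀ f : H → ℝ, Len f →
    (∀ g, (∃ γ : ℕ → H, Tendsto γ U (𝓝 g) ∧ Tendsto (fun N => (b N)⁻¹ * γ N * b N) U (𝓝 1)) →
      f g = 0) → ∀ g, f g = 0

/-- Subsequences. -/
theorem MauU.comp {H : Type} [Group H] [TopologicalSpace H] {b : ℕ → H} (h : MauU H b) {s : ℕ → ℕ}
    (hs : Tendsto s atTop atTop) : MauU H (fun N => b (s N)) := by
  intro U hU f hf h1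
  refine h (U.map s) (le_trans (map_mono hU) hs) f hf fun g hg => h1 g ?_
  obtain ⟨γ, hγ, hγ1⟩ := hg
  exact ⟨fun N => γ (s N), hγ, hγ1⟩

/-- From the group form of Howe–Moore. -/
theorem MauU.of {H : Type} [Group H] [TopologicalSpace H] (h : HMG H) {b : ℕ → H}
    (hb : Tendsto b atTop (cocompact H)) : MauU H b := by
  intro U hU f hf h1
  refine h (U.map b) (le_trans (map_mono hU) hb) f hf fun g hg => h1 g ?_
  obtain ⟨γ, hγ, hγ1⟩ := hg
  exact ⟨fun N => γ (b N), hγ, hγ1⟩

/-- Mautner sequences satisfy Howe–Moore. -/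
theorem MauU.hmSeq {H : Type} [Group H] [TopologicalSpace H] {b : ℕ → H} (h : MauU H b) :
    HMSeq H b := by
  intro E _ _ _ π h1 h2 h3 ξ η
  rw [tendsto_iff_ultrafilter]
  intro U hU
  obtain ⟨w, hw⟩ := H201.exists_weak U (fun N => π (b N) ξ) ‖ξ‖
    (Eventually.of_forall fun N => (h1 _ _).le)
  have hinv : ∀ u (x y : E), ⟪x, π u y⟫_ℂ = ⟪π u⁻¹ x, y⟫_ℂ := by
    intro u x y
    have e1 : ⟪π u (π u⁻¹ x), π u y⟫_ℂ = ⟪π u⁻¹ x, y⟫_ℂ :=
      (LinearIsometry.mk (π u).toLinearMap (h1 u)).inner_map_map _ _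
    have e2 : π u (π u⁻¹ x) = x := by
      have e3 : (π u * π u⁻¹) x = x := by rw [← map_mul, mul_inv_cancel, map_one]; rfl
      exact e3
    rwa [e2] at e1
  have hfix : ∀ u, (∃ γ : ℕ → H, Tendsto γ U (𝓝 u) ∧
      Tendsto (fun N => (b N)⁻¹ * γ N * b N) U (𝓝 1)) → π u w = w := by
    rintro u ⟨γ, hγ, hγ1⟩
    refine ext_inner_left ℂ fun z => ?_
    have e0 : Tendsto (fun N => π (γ N)⁻¹ z) U (𝓝 (π u⁻¹ z)) := by
      have e4 : Tendsto (fun N => ‖π (γ N) (π u⁻¹ z) - z‖) U (𝓝 0) := by
        have := (((h2 (π u⁻¹ z)).tendsto u).comp hγ).sub_const z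
        have e5 : π u (π u⁻¹ z) = z := by
          have e3 : (π u * π u⁻¹) z = z := by rw [← map_mul, mul_inv_cancel, map_one]; rfl
          exact e3
        rw [e5, sub_self] at this
        simpa using this.norm
      rw [tendsto_iff_norm_sub_tendsto_zero]
      refine e4.congr fun N => ?_
      have e5 : π (γ N) (π (γ N)⁻¹ z - π u⁻¹ z) = -(π (γ N) (π u⁻¹ z) - z) := by
        have e3 : π (γ N) (π (γ N)⁻¹ z) = z := by
          have : (π (γ N) * π (γ N)⁻¹) z = z := by rw [← map_mul, mul_inv_cancel, map_one]; rfl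
          exact this
        rw [map_sub, e3, neg_sub]
      rw [← h1 (γ N) (π (γ N)⁻¹ z - π u⁻¹ z), e5, norm_neg]
    have e1 : Tendsto (fun N => ⟪z, π (γ N) (π (b N) ξ)⟫_ℂ) U (𝓝 ⟪z, π u w⟫_ℂ) := by
      rw [hinv]
      have e6 : Tendsto (fun N => ⟪π (γ N)⁻¹ z - π u⁻¹ z, π (b N) ξ⟫_ℂ) U (𝓝 0) := by
        rw [tendsto_zero_iff_norm_tendsto_zero]
        have e7 : Tendsto (fun N => ‖π (γ N)⁻¹ z - π u⁻¹ z‖ * ‖ξ‖) U (𝓝 0) := by
          have := (tendsto_iff_norm_sub_tendsto_zero.1 e0).mul_const ‖ξ‖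
          rwa [zero_mul] at this
        refine squeeze_zero (fun N => norm_nonneg _) (fun N => ?_) e7
        refine (norm_inner_le_norm _ _).trans ?_
        rw [h1]
      have e8 := e6.add (hw (π u⁻¹ z))
      rw [zero_add] at e8
      refine e8.congr fun N => ?_
      rw [hinv (γ N) z (π (b N) ξ), inner_sub_left]
      ring
    have e2 : Tendsto (fun N => ⟪z, π (γ N) (π (b N) ξ) - π (b N) ξ⟫_ℂ) U (𝓝 0) := by
      rw [tendsto_zero_iff_norm_tendsto_zero]
      have e3 : Tendsto (fun N => ‖z‖ * ‖π ((b N)⁻¹ * γ N * b N) ξ - ξ‖) U (𝓝 0) := by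
        have hc : Tendsto (fun g => π g ξ) (𝓝 1) (𝓝 ξ) := by
          have := (h2 ξ).tendsto 1
          rwa [map_one] at this
        have e4 := ((hc.comp hγ1).sub_const ξ).norm.const_mul ‖z‖
        rw [sub_self, norm_zero, mul_zero] at e4
        exact e4
      refine squeeze_zero (fun N => norm_nonneg _) (fun N => ?_) e3
      refine (norm_inner_le_norm _ _).trans ?_
      have e5 : π (γ N) (π (b N) ξ) = π (b N) (π ((b N)⁻¹ * γ N * b N) ξ) := by
        have e7 : (π (γ N) * π (b N)) ξ = (π (b N) * π ((b N)⁻¹ * γ N * b N)) ξ := by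
          rw [← map_mul, ← map_mul]
          congr 2
          group
        exact e7
      rw [e5, ← map_sub, h1]
    have e8 : Tendsto (fun N => ⟪z, π (γ N) (π (b N) ξ)⟫_ℂ) U (𝓝 ⟪z, w⟫_ℂ) := by
      have e9 := e2.add (hw z)
      rw [zero_add] at e9
      refine e9.congr fun N => ?_
      rw [inner_sub_right]
      ring
    exact tendsto_nhds_unique e1 e8
  have hlen : Len fun g => dist (π g w) w := by
    refine Len.ofAction (fun g x => π g x) (fun g g' x => ?_) w ?_ (fun g x y => ?_) ?_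
    · rw [map_mul]; rfl
    · rw [map_one]; rfl
    · rw [dist_eq_norm, dist_eq_norm, ← map_sub, h1]
    · have := (h2 w).tendsto 1
      rwa [map_one] at this
  have hall := h U hU _ hlen fun u hu => by
    show dist (π u w) w = 0
    rw [hfix u hu, dist_self]
  have hw0 : w = 0 := h3 w fun g => dist_eq_zero.1 (hall g)
  have e1 := (Complex.continuous_conj.tendsto _).comp (hw η)
  rw [hw0, inner_zero_right, map_zero] at e1
  refine e1.congr fun N => ?_
  simp only [Function.comp_apply]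
  exact inner_conj_symm _ _

/-- Finite products. -/
theorem mauU_pi {I : Type} [Finite I] [DecidableEq I] {H : I → Type} [∀ i, Group (H i)]
    [∀ i, TopologicalSpace (H i)] {b : ∀ i, ℕ → H i} (h : ∀ i, MauU (H i) (b i)) :
    MauU (∀ i, H i) (fun N i => b i N) := by
  intro U hU f hf h1 g
  have key : ∀ i (x : H i), Pi.mulSingle i x ∈ hf.ker := by
    intro i x
    have hc : ContinuousAt (MonoidHom.mulSingle H i) 1 := by
      have : Continuous fun x : H i => (Pi.mulSingle i x : ∀ i, H i) := continuous_mulSingle i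
      exact this.continuousAt
    refine h i U hU _ (hf.comap (MonoidHom.mulSingle H i) hc) (fun u hu => ?_) x
    obtain ⟨γ, hγ, hγ1⟩ := hu
    refine h1 _ ⟨fun N => Pi.mulSingle i (γ N), ?_, ?_⟩
    · exact ((continuous_mulSingle i).tendsto u).comp hγ
    · rw [tendsto_pi_nhds]
      intro j
      by_cases hj : j = i
      · subst hj
        refine hγ1.congr fun N => ?_
        show (b j N)⁻¹ * γ N * b j N = (b j N)⁻¹ * (Pi.mulSingle j (γ N) : ∀ i, H i) j * b j N
        rw [Pi.mulSingle_eq_same]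
      · refine tendsto_const_nhds.congr fun N => ?_
        show (1 : H j) = (b j N)⁻¹ * (Pi.mulSingle i (γ N) : ∀ i, H i) j * b j N
        rw [Pi.mulSingle_eq_of_ne hj, mul_one, inv_mul_cancel]
  exact Subgroup.pi_mem_of_mulSingle_mem g fun i => key i _

end Vale.Agent.P092.QC
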