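import Vale.Agent.P092.H465.QNeR
import Vale.Agent.P092.H971.PlcAbs
import Vale.Agent.P092.H259.Grp
import Vale.Agent.P092.QC.Mau

/-!
P092, project Q for classes of factors (helper328): nonvanishing (the core is helper465's `qne_r`).
-/

set_option linter.all false

open scoped InnerProductSpace Topology ENNReal
open Filter ContinuousLinearMap MeasureTheory

namespace Vale.Agent.P092.QC

open Vale.Agent.P092.H160 Vale.Agent.P092.H156 Vale.Agent.P092.SR Vale.Agent.P092.H776
open Vale.Agent.P092.H734.Q Vale.Agent.P092.H264 Vale.Agent.P092.H739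
open Vale.Agent.P092.H85 (coc)
open Vale.Agent.P092.H761 (HS)
open Vale.Agent.P092.H515 (IsLattice Tgt HChain.prodSnd)
open Vale.Agent.P092.H701 (HChain)
open Vale.Agent.P092.H465
open Vale.Agent.P092.H259 (PQ pq)
open Vale.Agent.P092.H15 (HMG)

section prod

variable {A S : Type} [Fintype S] {H : S → Type} [Group A] [TopologicalSpace A]
    [IsTopologicalGroup A] [LocallyCompactSpace A] [SecondCountableTopology A] [T2Space A]
    [MeasurableSpace A] [BorelSpace A] [∀ s, Group (H s)] [∀ s, TopologicalSpace (H s)]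
    [∀ s, IsTopologicalGroup (H s)] [∀ s, LocallyCompactSpace (H s)]
    [∀ s, SecondCountableTopology (H s)] [∀ s, T2Space (H s)] [∀ s, MeasurableSpace (H s)]
    [∀ s, BorelSpace (H s)] {Γ : Subgroup (A × ∀ s, H s)}
    {Λ : Type} [Group Λ] {α : Γ →* (Ell2 Λ →L[ℂ] Ell2 Λ)}

/-- **[Q-NE]** for finitely many factors, source place = the factor `A`. -/
theorem qne_c (hΓ : IsLattice Γ) (hα : Frame α) {J : Type} [Fintype J] {G Q : J → Type}
    [∀ j, Group (G j)] [∀ j, TopologicalSpace (G j)] {r : J → ℕ} {nA : ℕ} {n : S → ℕ}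
    (CA : HChain A nA) (C : ∀ s, HChain (H s) (n s)) (hn : ∀ s, 0 < n s)
    (hM : ∀ s, MauU (H s) ((C s).b ⟨0, hn s⟩)) (hG : ∀ j, Tgt (G j) (r j))
    (hc : Fintype.card S < Fintype.card J) (hr : ∑ j, r j ≤ nA + ∑ s, n s)
    (φ : Γ →* ∀ j, G j) (hφ : ∀ K : Set (∀ j, G j), IsCompact K → {x | φ x ∈ K}.Finite)
    [∀ j, Group (Q j)] [∀ j, TopologicalSpace (Q j)] [∀ j, IsTopologicalGroup (Q j)]
    [∀ j, LocallyCompactSpace (Q j)] [∀ j, SecondCountableTopology (Q j)] [∀ j, T2Space (Q j)]
    [∀ j, MeasurableSpace (Q j)] [∀ j, BorelSpace (Q j)] (π : ∀ j, G j →* Q j)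
    (hπ : ∀ j, Continuous (π j)) (μ : ∀ j, Measure (Q j)) [∀ j, (μ j).IsHaarMeasure]
    [∀ j, (μ j).IsMulRightInvariant] :
    ∃ j, NeL false ((π j).comp ((Pi.evalMonoidHom G j).comp φ))
      ((MonoidHom.fst A (∀ s, H s)).comp Γ.subtype) α (μ j) := by
  classical
  have hd := hΓ.disc
  let _ : MeasurableSpace ((A × ∀ s, H s) ⧸ Γ) := borel _
  have _ : BorelSpace ((A × ∀ s, H s) ⧸ Γ) := ⟨rfl⟩
  have hcΓ : Countable Γ := H790.countable_of_discrete Γ
  obtain ⟨ν, hν0, hνf, hν⟩ := hΓ.covol
  have hν1 : ν Set.univ ≠ 0 := by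
    intro h
    exact hν0 (Measure.measure_univ_eq_zero.mp h)
  have hP : IsProbabilityMeasure ((ν Set.univ)⁻¹ • ν) := by
    constructor
    rw [Measure.smul_apply, smul_eq_mul]
    exact ENNReal.inv_mul_cancel hν1 hνf.ne
  have hinv : ∀ g : A × ∀ s, H s,
      ((ν Set.univ)⁻¹ • ν).map (fun x => g • x) = (ν Set.univ)⁻¹ • ν := by
    intro g
    have hgm : Measurable (fun x : (A × ∀ s, H s) ⧸ Γ => g • x) := H85.smul_meas Γ g
    ext s hs
    rw [Measure.map_apply hgm hs, Measure.smul_apply, Measure.smul_apply, hν g s hs]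
  have : Nonempty J := Fintype.card_pos_iff.1 (by omega)
  obtain ⟨D, hD⟩ := exists_piChain C hn Finset.univ
  have hcard : (Finset.univ : Finset S).card ≤ ∑ s, n s := by
    rw [Finset.card_eq_sum_ones]
    exact Finset.sum_le_sum fun s _ => hn s
  obtain ⟨j, s, K, hs, hK, h3⟩ := some_bounded_leg hinv hα (HChain.prodSnd CA D)
    (k := (Finset.univ : Finset S).card) (by omega) (by rwa [Finset.card_univ]) hG
    (by omega) φ hφ (fun N => ((1 : A), fun s => (C s).b ⟨0, hn s⟩ N)) (fun N => by
      have h1 := hD fun _ => N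
      simp only [Finset.mem_univ, if_true] at h1
      exact HS_prodSnd CA D h1)
  have hHM : HMSeq (∀ s, H s) (fun N s' => (C s').b ⟨0, hn s'⟩ (s N)) :=
    ((mauU_pi hM).comp hs.tendsto_atTop).hmSeq
  obtain ⟨f, hf, hf1⟩ := s2_core hinv (frm hα)
    (((π j).comp ((Pi.evalMonoidHom G j).comp φ)).comp (leg Γ false)) (μ j) hHM
    (hK.image (hπ j)) (c := 1 / (2 * Fintype.card J)) (by positivity) fun N => (h3 N).trans
      (ams_mono (frm hα) (fun x hx => ⟨_, hx, rfl⟩) _)
  exact ⟨j, f, hf, fun h2 => hf1 (by rw [h2]; rfl)⟩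

end prod

section split

variable {I : Type} [DecidableEq I] (E : I → Type) [∀ i, Group (E i)] (i : I)

/-- A product splits off one factor. -/
def splitO : (∀ l, E l) ≃* E i × (∀ l : {l : I // l ≠ i}, E l) where
  toFun x := (x i, fun l => x l)
  invFun y := fun l => if h : l = i then h ▸ y.1 else y.2 ⟨l, h⟩
  left_inv x := by
    funext l
    by_cases h : l = i
    · subst h; simp
    · simp [h]
  right_inv y := by
    refine Prod.ext ?_ ?_
    · simp
    · funext l
      simp [l.2]
  map_mul' x y := rfl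

variable [∀ i, TopologicalSpace (E i)]

theorem continuous_splitO : Continuous (splitO E i) := by
  change Continuous fun x : ∀ l, E l => (x i, fun l : {l : I // l ≠ i} => x l)
  fun_prop

theorem continuous_splitO_symm : Continuous (splitO E i).symm := by
  refine continuous_pi fun l => ?_
  by_cases h : l = i
  · subst h
    have : (fun y : E l × (∀ l' : {l' : I // l' ≠ l}, E l') => (splitO E l).symm y l) =
        fun y => y.1 := by
      funext y
      simp [splitO]
    rw [this]; fun_prop
  · have : (fun y : E i × (∀ l' : {l' : I // l' ≠ i}, E l') => (splitO E i).symm y l) =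
        fun y => y.2 ⟨l, h⟩ := by
      funext y
      simp [splitO, h]
    rw [this]; fun_prop

end split

section class_

variable {I : Type} [Fintype I] {E : I → Type} [∀ i, Group (E i)] [∀ i, TopologicalSpace (E i)]
  [∀ i, IsTopologicalGroup (E i)] [∀ i, LocallyCompactSpace (E i)]
  [∀ i, SecondCountableTopology (E i)] [∀ i, T2Space (E i)]
  [∀ i, LocallyCompactSpace (PQ (E i))] [∀ i, SecondCountableTopology (PQ (E i))]
  [∀ i, T2Space (PQ (E i))]
  [∀ i, MeasurableSpace (PQ (E i))] [∀ i, BorelSpace (PQ (E i))]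
  (μ : ∀ i, Measure (PQ (E i))) [∀ i, (μ i).IsHaarMeasure] [∀ i, (μ i).IsMulRightInvariant]
  {Γ : Type} [Group Γ]

/-- Nonvanishing for a lattice in a product of factors of the class. -/
theorem neL_class (hfin : ∀ i, Finite (Subgroup.center (E i))) (hmg : ∀ i, HMG (E i))
    {r : I → ℕ} (hch : ∀ i, Chn (E i) (r i)) (htg : ∀ i, Tgt (E i) (r i)) (hr : ∀ i, 0 < r i)
    (q : ∀ i, Γ →* E i) (hi : ∀ g, (∀ i, q i g = 1) → g = 1)
    (hlat : H515.St.IsLattice (MonoidHom.pi q).range) (hd : ∀ i, DenseRange (q i))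
    {Λ : Type} [Group Λ] {α : Γ →* (Ell2 Λ →L[ℂ] Ell2 Λ)} (hα : Frame α) (i : I) :
    ∃ j, NeL false ((pq (E j)).comp (q j)) ((pq (E i)).comp (q i)) α (μ j) := by
  classical
  have hdisc := hlat.disc
  let _ : ∀ i, MeasurableSpace (E i) := fun i => borel _
  have _ : ∀ i, BorelSpace (E i) := fun i => ⟨rfl⟩
  have hinj : Function.Injective (MonoidHom.pi q) := by
    rw [injective_iff_map_eq_one]
    intro g hg
    exact hi g fun i => congrFun hg i
  have hcΓ : Countable Γ := by
    have h1 : Countable (MonoidHom.pi q).range := H790.countable_of_discrete _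
    have h2 : Function.Injective (MonoidHom.pi q).rangeRestrict := fun a b hab =>
      hinj (congrArg Subtype.val hab)
    exact h2.countable
  -- the lattice in the split product
  let q' : Γ →* E i × (∀ s : {s : I // s ≠ i}, E s) := (q i).prod (MonoidHom.pi fun s => q s)
  have hq' : ∀ g, q' g = splitO E i (MonoidHom.pi q g) := fun g => rfl
  have hinj' : Function.Injective q' := fun a b hab => by
    rw [hq', hq'] at hab
    exact hinj ((splitO E i).injective hab)
  have hlat' : H515.St.IsLattice q'.range := by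
    have h1 := H971.isLattice_equiv (splitO E i) (continuous_splitO E i)
      (continuous_splitO_symm E i) hlat
    have hr : (MonoidHom.pi q).range.map ((splitO E i : (∀ l, E l) ≃* _) :
        (∀ l, E l) →* E i × (∀ s : {s : I // s ≠ i}, E s)) = q'.range := by
      ext x
      constructor
      · rintro ⟨_, ⟨g, rfl⟩, rfl⟩
        exact ⟨g, rfl⟩
      · rintro ⟨g, rfl⟩
        exact ⟨_, ⟨g, rfl⟩, rfl⟩
    rwa [hr] at h1
  let e : q'.range ≃* Γ := (MonoidHom.ofInjective hinj').symm
  have he : ∀ x : q'.range, q' (e x) = x := fun x =>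
    congrArg Subtype.val ((MonoidHom.ofInjective hinj').apply_symm_apply x)
  choose C hC using hch
  obtain ⟨j, hj⟩ := qne_c (Γ := q'.range) (⟨hlat'.disc, hlat'.covol⟩ : IsLattice q'.range)
    (frame_comap hα e) (J := I) (G := E) (Q := fun j => PQ (E j)) (r := r) (nA := r i)
    (n := fun s : {s : I // s ≠ i} => r s) (C i) (fun s => C s) (fun s => hr s)
    (fun s => MauU.of (hmg s) (hC s (hr s))) htg (by
      rw [Fintype.card_subtype_compl, Fintype.card_subtype_eq]
      have : 0 < Fintype.card I := Fintype.card_pos_iff.2 ⟨i⟩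
      omega) (by
      rw [Fintype.sum_eq_add_sum_subtype_ne r i]) ((MonoidHom.pi q).comp e.toMonoidHom)
    (fun K hK => by
      have h1 := H515.finite_of_compact (MonoidHom.pi q).range hK
      have h2 : Function.Injective fun x : q'.range =>
          (⟨MonoidHom.pi q (e x), e x, rfl⟩ : (MonoidHom.pi q).range) := fun a b hab =>
        e.injective (hinj (congrArg Subtype.val hab))
      exact (h1.preimage h2.injOn).subset fun x hx => hx)
    (fun j => pq (E j)) (fun j => continuous_quotient_mk') μ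
  have hκ : (q i).comp e.toMonoidHom =
      (MonoidHom.fst (E i) (∀ s : {s : I // s ≠ i}, E s)).comp q'.range.subtype := by
    ext x
    exact congrArg Prod.fst (he x)
  have h1 : NeL false ((pq (E j)).comp (q j)) (q i) α (μ j) := by
    refine neL_comap e ?_
    rw [hκ]
    exact hj
  haveI := hfin i
  exact ⟨j, neL_quot hα (hd i) (Subgroup.center (E i)) h1⟩

end class_

end Vale.Agent.P092.QC
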