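import Vale.Agent.P092.QC.Grp
import Vale.Agent.P092.QC.Ne
import Vale.Agent.P092.QC.Erg
import Vale.Agent.P092.H628.TorMain
import Vale.Agent.P092.H133.Transp

/-!
P092, project Q for classes of factors (helper328): the final theorem, given the abstract blocks.
-/

set_option linter.all false

open MeasureTheory Filter Topology
open Vale.Agent.P092.H160 Vale.Agent.P092.H515.St

namespace Vale.Agent.P092.QC

open Vale.Agent.P092.SR Vale.Agent.P092.SR.St
open Vale.Agent.P092.PA (FacS Lat)
open Vale.Agent.P092.H259 (PQ pq)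
open Vale.Agent.P092.H15 (HMG)
open Vale.Agent.P092.H264 (Chn)
open Vale.Agent.P092.H515 (Tgt)
open Vale.Agent.P092.H156

/-- The class of factors of project Q (rank `r`). -/
structure QF (E : Type) [Group E] [TopologicalSpace E] (r : ℕ) : Prop where
  top : IsTopologicalGroup E
  lc : LocallyCompactSpace E
  sc : SecondCountableTopology E
  t2 : T2Space E
  fin : Finite (Subgroup.center E)
  fac : FacS (PQ E)
  hmg : HMG E
  chn : Chn E r
  tgt : Tgt E r
  pos : 0 < r
  erg : PreconnectedSpace E ∨ Td E

variable {I : Type} [Fintype I] {E : I → Type} [∀ i, Group (E i)] [∀ i, TopologicalSpace (E i)]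
  {r : I → ℕ} {Γ : Type} [Group Γ]

/-- Ergodicity at all places. -/
theorem ergAll (h : ∀ i, QF (E i) (r i)) (q : ∀ i, Γ →* E i)
    (hi : ∀ g, (∀ i, q i g = 1) → g = 1) (hlat : IsLattice (MonoidHom.pi q).range)
    (hd : ∀ i, DenseRange (q i)) (hicc : SR.St.ICC Γ) :
    Q.ErgAll fun i => (pq (E i)).comp (q i) := by
  have a0 := fun i => (h i).top
  have a1 := fun i => (h i).lc
  have a2 := fun i => (h i).sc
  have a3 := fun i => (h i).t2
  have hcA : ∀ i, IsCompact (Subgroup.center (E i) : Set (E i)) := fun i => by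
    haveI := (h i).fin
    exact (Set.toFinite _).isCompact
  intro Λ _ _ α hΛ hα i
  rcases (h i).erg with hc | ht
  · haveI : PreconnectedSpace (PQ (E i)) :=
      (QuotientGroup.mk'_surjective (Subgroup.center (E i))).denseRange.preconnectedSpace
        continuous_quotient_mk'
    exact H866.erg_icc (h i).fac hicc hΛ hα
      ((QuotientGroup.mk'_surjective _).denseRange.comp (hd i) continuous_quotient_mk')
  · exact ht.erg H628.torStmt (h i).fin hα hicc (hd i) fun g hg =>
      H971.ricc_quot q hi hlat hicc hcA (fun i => (h i).fac.recu) i (hd i) (h i).fac.cent hg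

/-- **The final theorem of project Q for a class of factors, given the blocks.** -/
theorem super_of (B : Q.Blk) (h : ∀ i, QF (E i) (r i)) (q : ∀ i, Γ →* E i)
    (hi : ∀ g, (∀ i, q i g = 1) → g = 1) (hlat : IsLattice (MonoidHom.pi q).range)
    (hd : ∀ i, DenseRange (q i)) (hicc : SR.St.ICC Γ) : Super Γ := by
  have a0 := fun i => (h i).top
  have a1 := fun i => (h i).lc
  have a2 := fun i => (h i).sc
  have a3 := fun i => (h i).t2
  have b1 := fun i => (h i).fac.lc
  have b2 := fun i => (h i).fac.sc
  have b3 := fun i => (h i).fac.t2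
  letI : ∀ i, MeasurableSpace (PQ (E i)) := fun i => borel _
  haveI : ∀ i, BorelSpace (PQ (E i)) := fun i => ⟨rfl⟩
  obtain ⟨m, hm⟩ := grp (fun i => (h i).fin) (fun i => (h i).fac) q hi hlat hd hicc
  haveI : ∀ i, (Measure.haar : Measure (PQ (E i))).IsMulRightInvariant := fun i =>
    (h i).fac.isMulRightInvariant _
  refine B.super hicc (fun i => Measure.haar) hm (ergAll h q hi hlat hd hicc) ?_
  intro Λ _ _ α hΛ hα i
  obtain ⟨j, b, hb, h0⟩ := neL_class (fun i => (Measure.haar : Measure (PQ (E i))))
    (fun i => (h i).fin) (fun i => (h i).hmg) (fun i => (h i).chn) (fun i => (h i).tgt)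
    (fun i => (h i).pos) q hi hlat hd hα i
  exact ⟨j, b, hb, h0⟩

end Vale.Agent.P092.QC
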