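import Vale.Agent.P092.QC.Final
import Vale.Agent.P092.H714.TopF
import Vale.Agent.P092.H15.HMSl
import Vale.Agent.P092.H761.FinT
import Vale.Agent.P092.H866.ErgQ

/-!
P092, project Q for classes of factors (helper328): `SL_{m+1}(k)` is a factor of rank `m`.
-/

set_option linter.all false

open Filter Topology Matrix

namespace Vale.Agent.P092.QC

open Vale.Agent.P092.H933 (LocK)

theorem td_sl {k : Type} [NontriviallyNormedField k] [ProperSpace k] [IsUltrametricDist k] {N : ℕ}
    (hN : 2 ≤ N) : Td (SpecialLinearGroup (Fin N) k) where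
  basis := H761.cptOpen_sl'
  proper := fun W hW hne => H971.isCompact_of_isOpen_ne_top W hW hne
  vol := ⟨H632.int N k, H632.isOpen_int, H632.isCompact_int,
    fun U W hU hW hWc hUW hUi => H632.relIndex_le hN hU hW hWc hUW hUi⟩

/-- `SL_{m+1}(k)` is a factor of rank `m`. -/
theorem qf_sl {k : Type} [NontriviallyNormedField k] [ProperSpace k] (hk : LocK k) {m : ℕ}
    (hm : 1 ≤ m) : QF (SpecialLinearGroup (Fin (m + 1)) k) m := by
  have h := H714.TF.fct_sl hk hm
  haveI : Nontrivial (Fin (m + 1)) := Fin.nontrivial_iff_two_le.2 (by omega)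
  refine ⟨h.top, h.lc, h.sc, h.t2, h.cf.fin, h.fac, H15.hmg_sl hk (by omega), h.chn, h.tgt, h.pos,
    ?_⟩
  rcases H866.conn_or_ultra hk with hc | hu
  · exact Or.inl H866.preconnected_sl
  · exact Or.inr (td_sl (by omega))

end Vale.Agent.P092.QC
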