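import Vale.Agent.P092.H714.StC
import Vale.Agent.P092.SR.StR

/-!
P092, project Q for classes of factors (helper328): the class of groups of the final statement.  Only
definitions.
-/

open Vale.Agent.P092.SR.St Vale.Agent.P092.PC.St

namespace Vale.Agent.P092.QC.St

/-- `Γ` is an ICC lattice in a product of finitely many groups of the class `Cls`, whose projection to
every factor is dense. -/
def ClassLattice (Γ : Type) [Group Γ] : Prop :=
  ICC Γ ∧ ∃ (I : Type) (_ : Fintype I) (G : I → Type) (_ : ∀ j, Group (G j))
    (_ : ∀ j, TopologicalSpace (G j)) (i : Γ →* ∀ j, G j), (∀ j, Cls (G j)) ∧ DenseLattice i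

end Vale.Agent.P092.QC.St
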