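import Vale.Agent.P092.QC.Final
import Vale.Agent.P092.QC.St

/-!
P092, project Q for classes of factors (helper328): the final theorem for the class, given the blocks
and the facts about the class.
-/

set_option linter.all false

open MeasureTheory Filter Topology

namespace Vale.Agent.P092.QC

open Vale.Agent.P092.SR Vale.Agent.P092.SR.St Vale.Agent.P092.QC.St
open Vale.Agent.P092.H160

/-- The final theorem for an embedding. -/
theorem super_emb (B : Q.Blk) {I : Type} [Fintype I] {E : I → Type} [∀ i, Group (E i)]
    [∀ i, TopologicalSpace (E i)] {r : I → ℕ} (h : ∀ i, QF (E i) (r i)) {Γ : Type} [Group Γ]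
    (i : Γ →* ∀ j, E j) (hi : DenseLattice i) (hicc : SR.St.ICC Γ) : Super Γ := by
  have e : MonoidHom.pi (fun j => (Pi.evalMonoidHom E j).comp i) = i := by
    ext g j
    rfl
  refine super_of B h (fun j => (Pi.evalMonoidHom E j).comp i) (fun g hg => ?_) ?_ hi.dense hicc
  · refine hi.inj ?_
    rw [map_one]
    exact funext hg
  · rw [e]
    exact hi.lat

/-- The final theorem for a class of groups. -/
theorem super_cls (B : Q.Blk)
    (hc : ∀ (G : Type) [Group G] [TopologicalSpace G], PC.St.Cls G → ∃ r, QF G r)
    (Γ : Type) [Group Γ] (h : ClassLattice Γ) : Super Γ := by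
  obtain ⟨hicc, I, _, G, _, _, i, hG, hi⟩ := h
  choose r hr using fun j => hc (G j) (hG j)
  exact super_emb B hr i hi hicc

end Vale.Agent.P092.QC
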