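import Vale.Agent.P092.H971.Wn
import Vale.Agent.P092.H971.PlcAbs
import Vale.Agent.P092.H859.LatQ
import Vale.Agent.P092.H259.Grp
import Vale.Agent.P092.Q.Canon

/-!
P092, project Q for classes of factors (helper328): the group data (the proof is helper971's, with a
general family of factors).
-/

set_option linter.all false

open MeasureTheory Filter Topology
open Vale.Agent.P092.H515.St

namespace Vale.Agent.P092.QC

open Vale.Agent.P092.PA (FacS Lat)
open Vale.Agent.P092.H259 (PQ pq)
open Vale.Agent.P092.H971 (lat_quot inj_quot exists_esc)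

variable {I : Type} [Fintype I] {E : I → Type} [∀ i, Group (E i)] [∀ i, TopologicalSpace (E i)]
  [∀ i, IsTopologicalGroup (E i)] [∀ i, LocallyCompactSpace (E i)]
  [∀ i, SecondCountableTopology (E i)] [∀ i, T2Space (E i)]
  [∀ i, MeasurableSpace (PQ (E i))] [∀ i, BorelSpace (PQ (E i))] {Γ : Type} [Group Γ]

/-- The group data. -/
theorem grp (hfin : ∀ i, Finite (Subgroup.center (E i))) (hfac : ∀ i, FacS (PQ (E i)))
    (q : ∀ i, Γ →* E i) (hi : ∀ g, (∀ i, q i g = 1) → g = 1)
    (hlat : IsLattice (MonoidHom.pi q).range) (hd : ∀ i, DenseRange (q i))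
    (hicc : SR.St.ICC Γ) : ∃ m, Q.Grp (fun i => (pq (E i)).comp (q i)) m := by
  have b1 := fun i => (hfac i).lc
  have b2 := fun i => (hfac i).sc
  have b3 := fun i => (hfac i).t2
  have hcA : ∀ i, IsCompact (Subgroup.center (E i) : Set (E i)) := fun i => by
    haveI := hfin i
    exact (Set.toFinite _).isCompact
  have hL : IsLattice (MonoidHom.pi fun i => (pq (E i)).comp (q i)).range := lat_quot q hlat hcA
  have hinj : ∀ g, (∀ i, (pq (E i)).comp (q i) g = 1) → g = 1 := inj_quot q hi hicc
  obtain ⟨m, hm⟩ := H859.exists_lat (MonoidHom.pi fun i => (pq (E i)).comp (q i)) (by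
    rw [injective_iff_map_eq_one]
    intro g hg
    exact hinj g fun i => congrFun hg i) ⟨hL.disc, hL.covol⟩
  refine ⟨m, hm, hfac, fun i => ?_, fun i l hil => ?_, hinj⟩
  · exact (QuotientGroup.mk'_surjective _).denseRange.comp (hd i) continuous_quotient_mk'
  · obtain ⟨w, h1, h2⟩ := exists_esc (fun i => (pq (E i)).comp (q i)) hL l (hfac l).nc
    exact ⟨w, h1 i hil, h2⟩

end Vale.Agent.P092.QC
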